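import Vale.Agent.Lib.P348.helper23.Basics

/-!
# P348 pool job K3: norms of one-site operators applied to a vector

* `nsq_raise`: the raising operator at `j` maps `ψ` to a vector of squared norm
  `2 * uw j ψ`.
* `nsq_raise_le`: hence of squared norm at most `2 * nsq ψ`.
* `nsq_siteZ_le`: the third spin component at `j` does not increase the norm.
-/

namespace Vale.Agent.Lib.P348.H58

open Matrix

open Vale.Agent.Lib.P361 Vale.Agent.Lib.P348

/-- The entries of the raising matrix of spin one. -/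
theorem spinPlus_three (i k : Fin 3) :
    spinPlus 3 i k = if (k : ℕ) = (i : ℕ) + 1 then ((Real.sqrt 2 : ℝ) : ℂ) else 0 := by
  simp only [spinPlus]
  split_ifs with h
  · have e : (((i : ℕ) : ℝ) + 1) * (((3 : ℕ) : ℝ) - 1 - ((i : ℕ) : ℝ)) = 2 := by
      fin_cases i <;> fin_cases k <;> simp at h ⊢ <;> norm_num
    rw [e]
  · rfl

/-- The squared norm of a row of the raising matrix applied to a vector of length three. -/
theorem row_norm (i : Fin 3) (f : Fin 3 → ℂ) :
    ‖∑ k, spinPlus 3 i k * f k‖ ^ 2 = if i + 1 = 0 then 0 else 2 * ‖f (i + 1)‖ ^ 2 := by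
  simp only [spinPlus_three, Fin.sum_univ_three]
  fin_cases i
  · simp [mul_pow]
  · simp [mul_pow]
  · simp

theorem nsq_raise {L : ℕ} (j : Fin L) (ψ : (Fin L → Fin 3) → ℂ) :
    nsq (raise j *ᵥ ψ) = 2 * uw j ψ := by
  classical
  let e : (Fin L → Fin 3) ≃ (Fin L → Fin 3) :=
    { toFun := fun σ => Function.update σ j (σ j + 1)
      invFun := fun σ => Function.update σ j (σ j - 1)
      left_inv := by
        intro σ
        simp
      right_inv := by
        intro σ
        simp }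
  have he : ∀ σ, e σ = Function.update σ j (σ j + 1) := fun σ => rfl
  rw [nsq_def, uw_def, Finset.mul_sum, raise_def]
  rw [← Equiv.sum_comp e (fun τ => 2 * if τ j = 0 then 0 else ‖ψ τ‖ ^ 2)]
  refine Finset.sum_congr rfl fun σ _ => ?_
  rw [siteOp_mulVec, row_norm (σ j) (fun k => ψ (Function.update σ j k))]
  simp only [he, Function.update_self]
  split_ifs <;> simp

theorem nsq_raise_le {L : ℕ} (j : Fin L) (ψ : (Fin L → Fin 3) → ℂ) :
    nsq (raise j *ᵥ ψ) ≤ 2 * nsq ψ := by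
  rw [nsq_raise]
  have h : uw j ψ ≤ nsq ψ := by
    rw [uw_def, nsq_def]
    refine Finset.sum_le_sum fun σ _ => ?_
    split_ifs
    · positivity
    · exact le_refl _
  linarith

theorem nsq_siteZ_le {L : ℕ} (j : Fin L) (ψ : (Fin L → Fin 3) → ℂ) :
    nsq (siteOp j (spinZ 3) *ᵥ ψ) ≤ nsq ψ := by
  classical
  have hz : siteOp j (spinZ 3) = diagonal fun σ : Fin L → Fin 3 =>
      (((((3 : ℕ) : ℝ) - 1) / 2 - (((σ j : Fin 3) : ℕ) : ℝ) : ℝ) : ℂ) := by
    simp only [spinZ]
    rw [siteOp_diagonal]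
  rw [hz, nsq_def, nsq_def]
  refine Finset.sum_le_sum fun σ _ => ?_
  rw [mulVec_diagonal, norm_mul, mul_pow, Complex.norm_real, Real.norm_eq_abs, sq_abs]
  have h1 : (((σ j : Fin 3) : ℕ) : ℝ) ≤ 2 := by
    have : ((σ j : Fin 3) : ℕ) ≤ 2 := by have := (σ j).isLt; omega
    exact_mod_cast this
  have h0 : (0 : ℝ) ≤ (((σ j : Fin 3) : ℕ) : ℝ) := Nat.cast_nonneg _
  have h3 : ((((3 : ℕ) : ℝ) - 1) / 2 - (((σ j : Fin 3) : ℕ) : ℝ)) ^ 2 ≤ 1 := by
    push_cast
    nlinarith
  exact mul_le_of_le_one_left (sq_nonneg _) h3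

end Vale.Agent.Lib.P348.H58
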